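import Vale.Agent.P092.H144.Nc.Lin
import Vale.Agent.P092.QC.Final
import Mathlib.Order.Filter.Ultrafilter.Basic
import Mathlib.Topology.Algebra.OpenSubgroup

/-!
P092, project ND, [ND-CL] (helper144), part 4: **closed nondiscrete subgroups of finite covolume of linear
factors are open**, over every local field.
-/

set_option linter.all false

open Filter Topology MeasureTheory Set

namespace Vale.Agent.P092.H144.Nc

open Vale.Agent.P092.H213.Nd (ND Cov open_pos)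
open Vale.Agent.P092.QC (QF)

/-- The ultrafilter of small nontrivial elements. -/
theorem neBot_of_not_discrete {E : Type} [Group E] [TopologicalSpace E] [IsTopologicalGroup E]
    {H : Subgroup E} (h : ¬ DiscreteTopology H) :
    (𝓝 (1 : E) ⊓ 𝓟 ((H : Set E) \ {1})).NeBot := by
  rw [neBot_iff]
  intro h0
  apply h
  have h1 : Disjoint (𝓝 (1 : E)) (𝓟 ((H : Set E) \ {1})) := disjoint_iff.2 h0
  rw [disjoint_principal_right] at h1
  refine discreteTopology_of_isOpen_singleton_one (isOpen_iff_mem_nhds.2 ?_)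
  rintro x hx
  rw [mem_singleton_iff] at hx
  subst hx
  have h2 : Subtype.val ⁻¹' (((H : Set E) \ {1})ᶜ) ∈ 𝓝 (1 : H) :=
    (continuous_subtype_val (p := fun x => x ∈ H)).continuousAt.preimage_mem_nhds h1
  refine mem_of_superset h2 fun x hx => ?_
  rw [mem_singleton_iff]
  by_contra hne
  exact hx ⟨x.2, fun h3 => hne (Subtype.ext h3)⟩

/-- Noncentral elements near `1`. -/
theorem eventually_notMem_center {E : Type} [Group E] [TopologicalSpace E] [IsTopologicalGroup E]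
    [T2Space E] (hf : Finite (Subgroup.center E)) :
    ∀ᶠ y in 𝓝 (1 : E), y ≠ 1 → y ∉ Subgroup.center E := by
  have h1 : (((Subgroup.center E : Subgroup E) : Set E) \ {1}).Finite :=
    (Set.toFinite ((Subgroup.center E : Subgroup E) : Set E)).subset diff_subset
  have h2 : (((Subgroup.center E : Subgroup E) : Set E) \ {1})ᶜ ∈ 𝓝 (1 : E) :=
    h1.isClosed.isOpen_compl.mem_nhds fun h => h.2 rfl
  filter_upwards [h2] with y hy hne hc
  exact hy ⟨hc, hne⟩

/-- A closed subgroup which contains all conjugates of a noncentral element is open. -/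
theorem isOpen_of_common {E : Type} [Group E] [TopologicalSpace E] {r : ℕ} (h : QF E r)
    {H : Subgroup E} (hH : IsClosed (H : Set E)) {z : E} (hz : ∀ g : E, g⁻¹ * z * g ∈ H)
    (hzc : z ∉ Subgroup.center E) : IsOpen (H : Set E) := by
  haveI := h.top
  haveI := h.fin
  set N : Subgroup E := Subgroup.normalClosure {z} with hN
  have hNH : N ≤ H := by
    rw [hN, Subgroup.normalClosure, Subgroup.closure_le]
    intro x hx
    obtain ⟨y, hy, hxy⟩ := Group.mem_conjugatesOfSet_iff.1 hx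
    rw [mem_singleton_iff] at hy
    subst hy
    obtain ⟨c, hc⟩ := isConj_iff.1 hxy
    rw [← hc]
    have h1 := hz c⁻¹
    rwa [inv_inv] at h1
  have hzN : z ∈ N := Subgroup.subset_normalClosure (mem_singleton z)
  have hs : Function.Surjective (QuotientGroup.mk' (Subgroup.center E)) :=
    QuotientGroup.mk'_surjective _
  have hmN : (N.map (QuotientGroup.mk' (Subgroup.center E))).Normal :=
    Subgroup.Normal.map Subgroup.normalClosure_normal _ hs
  have htop : N.map (QuotientGroup.mk' (Subgroup.center E)) = ⊤ := by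
    rcases h.fac.simple _ hmN with h1 | h1
    · exfalso
      apply hzc
      have h2 : QuotientGroup.mk' (Subgroup.center E) z ∈
          N.map (QuotientGroup.mk' (Subgroup.center E)) := ⟨z, hzN, rfl⟩
      rw [h1, Subgroup.mem_bot] at h2
      exact (QuotientGroup.eq_one_iff z).1 h2
    · exact h1
  haveI hfi : Finite (E ⧸ N) := by
    refine Finite.of_surjective (fun c : Subgroup.center E => ((c : E) : E ⧸ N)) ?_
    intro x
    obtain ⟨x, rfl⟩ := QuotientGroup.mk_surjective x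
    have h1 : QuotientGroup.mk' (Subgroup.center E) x ∈
        N.map (QuotientGroup.mk' (Subgroup.center E)) := by
      rw [htop]
      trivial
    obtain ⟨n, hn, h2⟩ := h1
    have h3 : n⁻¹ * x ∈ Subgroup.center E := QuotientGroup.eq.1 h2
    refine ⟨⟨n⁻¹ * x, h3⟩, QuotientGroup.eq.2 ?_⟩
    show (n⁻¹ * x)⁻¹ * x ∈ N
    have h4 : (n⁻¹ * x)⁻¹ * x = x⁻¹ * n * x := by group
    rw [h4]
    have h5 := (Subgroup.normalClosure_normal (s := {z})).conj_mem n hn x⁻¹
    rwa [inv_inv] at h5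
  haveI : N.FiniteIndex := Subgroup.finiteIndex_of_finite_quotient
  haveI : H.FiniteIndex := Subgroup.finiteIndex_of_le hNH
  exact H.isOpen_of_isClosed_of_finiteIndex hH

variable {k D ι : Type} [NontriviallyNormedField k] [ProperSpace k] [NormedDivisionRing D]
  [NormedAlgebra k D] [FiniteDimensional k D] [Fintype ι] [DecidableEq ι]

/-- **The positivity.** -/
theorem exists_pos {E : Type} [Group E] [TopologicalSpace E] [IsTopologicalGroup E] [T2Space E]
    [LocallyCompactSpace E] [SecondCountableTopology E] (hf : Finite (Subgroup.center E))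
    (Φ : E →* Matrix ι ι D) (hΦ : IsClosedEmbedding Φ) (w : ι → ℤ) (t : k) (ht : 1 < ‖t‖) (a : E)
    (ha : Φ a = Matrix.diagonal fun i => algebraMap k D (t ^ w i))
    (hNZ : ∀ B ∈ 𝓝 (1 : E), ∀ y : E,
      (∀ b ∈ B, ∀ p q, w q < w p → Φ (b * y * b⁻¹) p q = 0) → y ∈ Subgroup.center E)
    {H : Subgroup E} (hcl : IsClosed (H : Set E)) (hnd : ¬ DiscreteTopology H)
    {ν : @Measure (E ⧸ H) (borel (E ⧸ H))} (hI : Inv ν) :
    ∃ i j : ι, ∃ κ : ℝ, w j < w i ∧ 0 < κ ∧ ν (Fx H (RR Φ w i j κ 0)) ≠ 0 := by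
  haveI : ProperSpace D := FiniteDimensional.proper k D
  have hc := hΦ.continuous
  have ht0 : t ≠ 0 := norm_pos_iff.1 (by linarith)
  have htn : 0 < ‖t‖ := by linarith
  obtain ⟨B, hB, hB1, hBc⟩ := exists_nbhd E
  haveI hne := neBot_of_not_discrete hnd
  set 𝒰 : Ultrafilter E := Ultrafilter.of (𝓝 (1 : E) ⊓ 𝓟 ((H : Set E) \ {1})) with h𝒰
  have hU : (𝒰 : Filter E) ≤ 𝓝 (1 : E) ⊓ 𝓟 ((H : Set E) \ {1}) := Ultrafilter.of_le _
  have hU1 : (𝒰 : Filter E) ≤ 𝓝 (1 : E) := hU.trans inf_le_left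
  have hUH : ∀ᶠ y in (𝒰 : Filter E), y ∈ (H : Set E) \ {1} := le_principal_iff.1 (hU.trans inf_le_right)
  have hUc : ∀ᶠ y in (𝒰 : Filter E), y ∉ Subgroup.center E := by
    filter_upwards [hU1 (eventually_notMem_center hf), hUH] with y h1 h2
    exact h1 h2.2
  -- the exponents
  set Q : E → ℕ → Prop := fun y n => ∀ p q, w q < w p → ∀ b ∈ B,
    ‖t‖ ^ ((n : ℤ) * (w p - w q)) * ‖Φ (b * y * b⁻¹) p q‖ ≤ 1 with hQ
  have hQ0 : ∀ᶠ y in (𝒰 : Filter E), Q y 0 := by
    filter_upwards [hU1 (unif_small (Φ := Φ) hc hB one_pos)] with y hy p q hpq b hb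
    rw [Nat.cast_zero, zero_mul, zpow_zero, one_mul]
    have h1 := hy b hb p q
    rw [Matrix.one_apply_ne (by rintro rfl; exact lt_irrefl _ hpq), sub_zero] at h1
    exact h1.le
  have hQN : ∀ y, y ∉ Subgroup.center E → ∃ N, ¬ Q y N := by
    intro y hy
    by_contra hcon
    push Not at hcon
    apply hy
    refine hNZ B hB1 y fun b hb p q hpq => ?_
    by_contra hx
    have h1 : Tendsto (fun n : ℕ => ‖t‖ ^ n * ‖Φ (b * y * b⁻¹) p q‖) atTop atTop :=
      (tendsto_pow_atTop_atTop_of_one_lt ht).atTop_mul_const (norm_pos_iff.2 hx)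
    obtain ⟨n, hn⟩ := (h1.eventually (eventually_gt_atTop 1)).exists
    have h2 := hcon n p q hpq b hb
    have h3 : ‖t‖ ^ n ≤ ‖t‖ ^ ((n : ℤ) * (w p - w q)) := by
      rw [← zpow_natCast]
      refine zpow_le_zpow_right₀ ht.le ?_
      nlinarith [Int.natCast_nonneg n]
    have h4 := mul_le_mul_of_nonneg_right h3 (norm_nonneg (Φ (b * y * b⁻¹) p q))
    linarith
  set G : E → ℕ → ι × ι → Prop := fun y n z => Q y n ∧ w z.2 < w z.1 ∧ ∃ b ∈ B,
    1 < ‖t‖ ^ (((n + 1 : ℕ) : ℤ) * (w z.1 - w z.2)) * ‖Φ (b * y * b⁻¹) z.1 z.2‖ with hG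
  have hgood : ∀ᶠ y in (𝒰 : Filter E), ∃ n z, G y n z := by
    filter_upwards [hQ0, hUc] with y h0 hyc
    obtain ⟨N, hN⟩ := hQN y hyc
    obtain ⟨n, hn, hn1⟩ : ∃ n, Q y n ∧ ¬ Q y (n + 1) := by
      by_contra hcon
      push Not at hcon
      exact hN (Nat.rec h0 (fun n ih => hcon n ih) N)
    simp only [hQ, not_forall, not_le] at hn1
    obtain ⟨p, q, hpq, b, hb, h1⟩ := hn1
    exact ⟨n, (p, q), hn, hpq, b, hb, h1⟩
  obtain ⟨y₀, n₀, z₀, -⟩ := hgood.exists
  have hch : ∀ y, ∃ n : ℕ, ∃ z : ι × ι, (∃ n z, G y n z) → G y n z := by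
    intro y
    by_cases hy : ∃ n z, G y n z
    · obtain ⟨n, z, h1⟩ := hy
      exact ⟨n, z, fun _ => h1⟩
    · exact ⟨0, z₀, fun h1 => absurd h1 hy⟩
  choose n z hnz using hch
  obtain ⟨⟨i, j⟩, hij⟩ := Ultrafilter.eq_pure_of_finite (𝒰.map z)
  have hz : ∀ᶠ y in (𝒰 : Filter E), z y = (i, j) := by
    have h1 : {x : ι × ι | x = (i, j)} ∈ 𝒰.map z := by
      rw [hij]
      exact rfl
    exact h1
  have hgood2 : ∀ᶠ y in (𝒰 : Filter E), G y (n y) (i, j) := by
    filter_upwards [hgood, hz] with y h1 h2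
    have h3 := hnz y h1
    rwa [h2] at h3
  obtain ⟨y₁, hy₁⟩ := hgood2.exists
  have hji : w j < w i := hy₁.2.1
  set d : ℤ := w i - w j with hd
  have hd0 : 0 < d := by omega
  set κ : ℝ := ‖t‖ ^ (-d) with hκ
  have hκ0 : 0 < κ := zpow_pos htn _
  have hentry : ∀ y b, ‖(Φ b * (t ^ ((n y : ℤ) * d) • Φ y) * Φ b⁻¹) i j‖ =
      ‖t‖ ^ ((n y : ℤ) * d) * ‖Φ (b * y * b⁻¹) i j‖ := by
    intro y b
    rw [mul_smul_comm, smul_mul_assoc, Matrix.smul_apply, norm_smul, norm_zpow, map_mul, map_mul]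
  obtain ⟨O, hO, hOn, hOB, hOκ⟩ := exists_open k hc hB hBc i j hκ0 𝒰
    (fun y => t ^ ((n y : ℤ) * d) • Φ y)
    (by
      filter_upwards [hgood2] with y hy b hb
      rw [hentry]
      exact hy.1 i j hji b hb)
    (by
      filter_upwards [hgood2] with y hy
      obtain ⟨-, -, b, hb, h1⟩ := hy
      refine ⟨b, hb, ?_⟩
      rw [hentry]
      have h2 : ‖t‖ ^ (((n y + 1 : ℕ) : ℤ) * (w i - w j)) = ‖t‖ ^ d * ‖t‖ ^ ((n y : ℤ) * d) := by
        rw [← zpow_add₀ htn.ne']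
        congr 1
        push_cast
        rw [← hd]
        ring
      simp only at h1
      rw [h2, mul_assoc] at h1
      have h3 : 0 < ‖t‖ ^ d := zpow_pos htn _
      rw [hκ, zpow_neg, inv_le_iff_one_le_mul₀ h3, mul_comm]
      exact h1.le)
  refine ⟨i, j, κ / 4, hji, by positivity, ?_⟩
  -- lower bound
  have hβ : ν ((QuotientGroup.mk : E → E ⧸ H) '' O) ≠ 0 :=
    open_pos ν hI.ne hI.inv _ (QuotientGroup.isOpenMap_coe _ hO) (hOn.image _)
  have hlow : ∀ δ : ℝ, 0 < δ → ν ((QuotientGroup.mk : E → E ⧸ H) '' O) ≤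
      ν (Fx H (RR Φ w i j (κ / 4) δ)) := by
    letI : MeasurableSpace (E ⧸ H) := borel _
    haveI : BorelSpace (E ⧸ H) := ⟨rfl⟩
    intro δ hδ
    have hus : ∀ᶠ y in (𝒰 : Filter E), ∀ b ∈ B, ∀ p q,
        ‖Φ (b * y * b⁻¹) p q - (1 : Matrix ι ι D) p q‖ < δ := hU1 (unif_small (Φ := Φ) hc hB hδ)
    obtain ⟨y, hy1, hy2, hy3, hy4⟩ := (hOκ.and (hgood2.and (hus.and hUH))).exists
    rw [← hI.inv (a ^ n y) _ (meas_cl (isClosed_fx hcl (isCompact_rr hΦ i j _ _)))]
    refine measure_mono ?_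
    rintro _ ⟨b, hb, rfl⟩
    show a ^ n y • (b : E ⧸ H) ∈ Fx H (RR Φ w i j (κ / 4) δ)
    refine ⟨a ^ n y * (b * y * b⁻¹) * (a ^ n y)⁻¹, ⟨?_, ?_, ?_⟩, ?_⟩
    · intro p q hpq
      rw [conj_entry ht0 ha, norm_smul, norm_zpow]
      exact hy2.1 p q hpq b (hOB hb)
    · rw [conj_entry ht0 ha, norm_smul, norm_zpow, ← hentry]
      exact hy1 b hb
    · intro p q hpq
      rw [conj_entry ht0 ha]
      have h1 := hy3 b (hOB hb) p q
      by_cases h2 : p = q
      · subst h2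
        rw [sub_self, mul_zero, zpow_zero, one_smul]
        exact h1.le
      · rw [Matrix.one_apply_ne h2, sub_zero] at h1 ⊢
        rw [norm_smul, norm_zpow]
        have h3 : ‖t‖ ^ ((n y : ℤ) * (w p - w q)) ≤ 1 := by
          refine zpow_le_one_of_nonpos₀ ht.le ?_
          nlinarith [Int.natCast_nonneg (n y)]
        calc _ ≤ 1 * ‖Φ (b * y * b⁻¹) p q‖ := mul_le_mul_of_nonneg_right h3 (norm_nonneg _)
          _ ≤ δ := by rw [one_mul]; exact h1.le
    · show (a ^ n y * (b * y * b⁻¹) * (a ^ n y)⁻¹) • ((a ^ n y * b : E) : E ⧸ H) =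
        ((a ^ n y * b : E) : E ⧸ H)
      rw [smul_mk_eq]
      have h1 : (a ^ n y * b)⁻¹ * (a ^ n y * (b * y * b⁻¹) * (a ^ n y)⁻¹) * (a ^ n y * b) = y := by
        group
      rw [h1]
      exact hy4.1
  -- the limit
  intro h0
  apply hβ
  letI : MeasurableSpace (E ⧸ H) := borel _
  haveI : BorelSpace (E ⧸ H) := ⟨rfl⟩
  haveI : IsFiniteMeasure ν := ⟨hI.fin⟩
  set R : ℕ → Set E := fun m => RR Φ w i j (κ / 4) (1 / ((m : ℝ) + 1)) with hR
  have hRa : Antitone R := by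
    intro m m' hm g hg
    refine ⟨hg.1, hg.2.1, fun p q hpq => (hg.2.2 p q hpq).trans ?_⟩
    have h1 : (m : ℝ) ≤ m' := by exact_mod_cast hm
    exact one_div_le_one_div_of_le (by positivity) (by linarith)
  have hRC : ⋂ m, R m ⊆ RR Φ w i j (κ / 4) 0 := by
    intro g hg
    rw [mem_iInter] at hg
    refine ⟨(hg 0).1, (hg 0).2.1, fun p q hpq => ?_⟩
    exact ge_of_tendsto' tendsto_one_div_add_atTop_nhds_zero_nat fun m => (hg m).2.2 p q hpq
  have h1 : ν (⋂ m, Fx H (R m)) = 0 :=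
    measure_mono_null ((fx_iInter hcl (fun m => isCompact_rr hΦ i j _ _) hRa).trans
      (fx_mono hRC)) h0
  have h2 : Tendsto (fun m => ν (Fx H (R m))) atTop (𝓝 (ν (⋂ m, Fx H (R m)))) :=
    tendsto_measure_iInter_atTop
      (fun m => (meas_cl (isClosed_fx hcl (isCompact_rr hΦ i j _ _))).nullMeasurableSet)
      (fun m m' hm => fx_mono (hRa hm)) ⟨0, (hI.lt _).ne⟩
  rw [h1] at h2
  exact le_antisymm (ge_of_tendsto' h2 fun m => hlow _ (by positivity)) bot_le

/-- **Closed nondiscrete subgroups of finite covolume of linear factors are open.** -/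
theorem nd_of_lin {E : Type} [Group E] [TopologicalSpace E] {r : ℕ} (h : QF E r)
    (Φ : E →* Matrix ι ι D) (hΦ : IsClosedEmbedding Φ) (w : ι → ℤ) (t : k) (ht : 1 < ‖t‖) (a : E)
    (ha : Φ a = Matrix.diagonal fun i => algebraMap k D (t ^ w i))
    (hNZ : ∀ B ∈ 𝓝 (1 : E), ∀ y : E,
      (∀ b ∈ B, ∀ p q, w q < w p → Φ (b * y * b⁻¹) p q = 0) → y ∈ Subgroup.center E) :
    ND E := by
  haveI := h.top
  haveI := h.lc
  haveI := h.sc
  haveI := h.t2
  haveI : ProperSpace D := FiniteDimensional.proper k D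
  intro H hcl hcov hnd
  obtain ⟨ν, h0, hfin, hinv⟩ := hcov
  have hI : Inv ν := ⟨h0, hfin, hinv⟩
  have ht0 : t ≠ 0 := norm_pos_iff.1 (by linarith)
  obtain ⟨i, j, κ, hji, hκ, hpos⟩ := exists_pos h.fin Φ hΦ w t ht a ha hNZ hcl hnd hI
  have hij : i ≠ j := by
    rintro rfl
    exact lt_irrefl _ hji
  have hUp : RR Φ w i j κ 0 ⊆ Up Φ w := by
    intro g hg p q hpq
    rw [Matrix.sub_apply]
    have h1 := hg.2.2 p q (by omega)
    exact norm_le_zero_iff.1 h1
  have hne1 : ∀ g ∈ RR Φ w i j κ 0, Φ g i j ≠ 0 := by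
    intro g hg h1
    have h2 := hg.2.1
    rw [h1, norm_zero] at h2
    linarith
  obtain ⟨x, c, hc, -⟩ : (Fx H (RR Φ w i j κ 0)).Nonempty := by
    rw [nonempty_iff_ne_empty]
    intro h1
    rw [h1] at hpos
    letI : MeasurableSpace (E ⧸ H) := borel _
    exact hpos measure_empty
  have hc1 : c ≠ 1 := by
    rintro rfl
    refine hne1 1 hc ?_
    rw [map_one, Matrix.one_apply_ne hij]
  obtain ⟨g₀, hg₀, hg₁, hcomm⟩ := exists_central hΦ.injective (hUp hc) hc1
  have htend := tendsto_conj hΦ.continuous hΦ.injective ht ha hg₀ hg₁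
  set W : Ultrafilter E := (hyperfilter ℕ).map fun n : ℕ => a ^ n * g₀ * (a ^ n)⁻¹ with hW
  have hWc : (W : Filter E) ≤ cocompact E := by
    have h1 : (hyperfilter ℕ : Filter ℕ) ≤ atTop := Nat.hyperfilter_le_atTop
    exact (Filter.map_mono h1).trans htend
  obtain ⟨z, hz, hzH⟩ := exists_common hI h.hmg hcl (isCompact_rr hΦ i j κ 0) hpos hWc (by
    have h1 : ∀ n : ℕ, ∀ c ∈ RR Φ w i j κ 0,
        a ^ n * g₀ * (a ^ n)⁻¹ * c = c * (a ^ n * g₀ * (a ^ n)⁻¹) := by
      intro n c hc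
      have h2 := hcomm _ ((up_conj ht0 ha n).2 (hUp hc))
      calc a ^ n * g₀ * (a ^ n)⁻¹ * c = a ^ n * (g₀ * ((a ^ n)⁻¹ * c * a ^ n)) * (a ^ n)⁻¹ := by
            group
        _ = a ^ n * ((a ^ n)⁻¹ * c * a ^ n * g₀) * (a ^ n)⁻¹ := by rw [h2]
        _ = _ := by group
    exact Filter.eventually_map.2 (Eventually.of_forall h1))
  refine isOpen_of_common h hcl hzH fun hzc => ?_
  have h1 : a ^ 1 * z * (a ^ 1)⁻¹ = z := by
    rw [Subgroup.mem_center_iff.1 hzc (a ^ 1), mul_inv_cancel_right]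
  have h2 := conj_entry ht0 ha 1 z i j
  rw [h1] at h2
  have h3 : ‖Φ z i j‖ = ‖t‖ ^ (w i - w j) * ‖Φ z i j‖ := by
    conv_lhs => rw [h2]
    rw [norm_smul, norm_zpow, Nat.cast_one, one_mul]
  have h4 : 0 < ‖Φ z i j‖ := norm_pos_iff.2 (hne1 z hz)
  have h5 : 1 < ‖t‖ ^ (w i - w j) := one_lt_zpow₀ ht (by omega)
  nlinarith

end Vale.Agent.P092.H144.Nc
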