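import Vale.Agent.P092.H144.Nc.Sld
import Vale.Agent.P092.H793.Nc.Cls
import Vale.Agent.P092.UN.ClsE

/-!
P092, project ND, [ND-CL] (helper144), part 6: the classical groups over all local fields.
-/

set_option linter.all false

open Filter Topology

namespace Vale.Agent.P092.H144.Nc

open Vale.Agent.P092.H213.Nd (ND)
open Vale.Agent.P092.H793.Nc (nd_of_fi nd_isCl nd_isQuat)

/-- **Closed nondiscrete subgroups of finite covolume of classical groups are open.** -/
theorem nd_cls {G : Type} [Group G] [TopologicalSpace G] (h : UN.Cls G) : ND G := by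
  obtain ⟨r, hq⟩ := UN.cls_qf h
  haveI := hq.top
  obtain ⟨k, _, hp, hk, h | ⟨D, _, _, hfc, h⟩⟩ := h
  · exact nd_isCl (H515.locK ((UN.locK_iff k).1 hk)) h
  · rcases h with h | h
    · exact nd_isSL (H515.locK ((UN.locK_iff k).1 hk)) hfc h
    · exact nd_isQuat (H515.locK ((UN.locK_iff k).1 hk)) hfc h

/-- **Closed nondiscrete subgroups of finite covolume of the groups of the class `ClsV` are open.** -/
theorem nd_clsV {G : Type} [Group G] [TopologicalSpace G] (h : UN.ClsV G) : ND G := by
  obtain ⟨ht, N, -, hf, ho, hc⟩ := h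
  exact nd_of_fi N hf ho (nd_cls hc)

end Vale.Agent.P092.H144.Nc
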