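import Vale.Agent.P092.H213.Nd.Bd
import Vale.Agent.P092.H15.HMAbs

/-!
P092, project ND, [ND-CL] (helper144), part 1: the fixed point sets of compact sets in a quotient of
finite covolume, and the ergodicity of unbounded subsets.
-/

set_option linter.all false

open Filter Topology MeasureTheory Set

namespace Vale.Agent.P092.H144.Nc

open Vale.Agent.P092.H15 (HMG Ctr)
open Vale.Agent.P092.H933 (Len)

variable {E : Type} [Group E] [TopologicalSpace E]

/-- The points of `E ⧸ H` fixed by an element of `C`. -/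
def Fx (H : Subgroup E) (C : Set E) : Set (E ⧸ H) := {x | ∃ c ∈ C, c • x = x}

theorem smul_mk_eq {H : Subgroup E} (c g : E) :
    c • (g : E ⧸ H) = (g : E ⧸ H) ↔ g⁻¹ * c * g ∈ H := by
  rw [show c • (g : E ⧸ H) = ((c * g : E) : E ⧸ H) from rfl, QuotientGroup.eq]
  constructor
  · intro h
    have h1 := H.inv_mem h
    rwa [show ((c * g)⁻¹ * g)⁻¹ = g⁻¹ * c * g by group] at h1
  · intro h
    have h1 := H.inv_mem h
    rwa [show (g⁻¹ * c * g)⁻¹ = (c * g)⁻¹ * g by group] at h1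

variable [IsTopologicalGroup E]

theorem isClosed_stab {H : Subgroup E} (hH : IsClosed (H : Set E)) (x : E ⧸ H) :
    IsClosed {c : E | c • x = x} := by
  obtain ⟨g, rfl⟩ := QuotientGroup.mk_surjective x
  have h : {c : E | c • (g : E ⧸ H) = (g : E ⧸ H)} = (fun c => g⁻¹ * c * g) ⁻¹' (H : Set E) := by
    ext c
    exact smul_mk_eq c g
  rw [h]
  exact hH.preimage (by fun_prop)

/-- Fixed point sets of compact sets are closed. -/
theorem isClosed_fx {H : Subgroup E} (hH : IsClosed (H : Set E)) {C : Set E} (hC : IsCompact C) :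
    IsClosed (Fx H C) := by
  rw [← (QuotientGroup.isQuotientMap_mk H).isClosed_preimage]
  haveI := isCompact_iff_compactSpace.1 hC
  have h : (QuotientGroup.mk : E → E ⧸ H) ⁻¹' (Fx H C) =
      Prod.snd '' {z : C × E | z.2⁻¹ * (z.1 : E) * z.2 ∈ H} := by
    ext g
    constructor
    · rintro ⟨c, hc, h1⟩
      exact ⟨(⟨c, hc⟩, g), (smul_mk_eq c g).1 h1, rfl⟩
    · rintro ⟨⟨c, g⟩, h1, rfl⟩
      exact ⟨c, c.2, (smul_mk_eq _ _).2 h1⟩
  rw [h]
  refine isClosedMap_snd_of_compactSpace _ ?_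
  have hc : Continuous fun z : C × E => z.2⁻¹ * (z.1 : E) * z.2 := by fun_prop
  exact hH.preimage hc

theorem fx_mono {H : Subgroup E} {C C' : Set E} (h : C ⊆ C') : Fx H C ⊆ Fx H C' :=
  fun _ ⟨c, hc, h1⟩ => ⟨c, h hc, h1⟩

theorem fx_union {H : Subgroup E} {T : Type} (s : Finset T) (C : T → Set E) :
    Fx H (⋃ i ∈ s, C i) = ⋃ i ∈ s, Fx H (C i) := by
  ext x
  simp only [Fx, mem_iUnion, mem_setOf_eq]
  constructor
  · rintro ⟨c, ⟨i, hi, hc⟩, h⟩
    exact ⟨i, hi, c, hc, h⟩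
  · rintro ⟨i, hi, c, hc, h⟩
    exact ⟨c, ⟨i, hi, hc⟩, h⟩

/-- Decreasing intersections. -/
theorem fx_iInter [T2Space E] {H : Subgroup E} (hH : IsClosed (H : Set E)) {R : ℕ → Set E}
    (hR : ∀ i, IsCompact (R i)) (ha : Antitone R) : (⋂ i, Fx H (R i)) ⊆ Fx H (⋂ i, R i) := by
  intro x hx
  rw [mem_iInter] at hx
  have h := IsCompact.nonempty_iInter_of_sequence_nonempty_isCompact_isClosed
    (fun i => R i ∩ {c : E | c • x = x}) (fun i => inter_subset_inter_left _ (ha (Nat.le_succ i)))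
    (fun i => by
      obtain ⟨c, hc, h⟩ := hx i
      exact ⟨c, hc, h⟩) ((hR 0).inter_right (isClosed_stab hH x))
    (fun i => (hR i).isClosed.inter (isClosed_stab hH x))
  obtain ⟨c, hc⟩ := h
  rw [mem_iInter] at hc
  exact ⟨c, mem_iInter.2 fun i => (hc i).1, (hc 0).2⟩

section meas

variable [SecondCountableTopology E] {H : Subgroup E}

/-- The defect of invariance of `A`. -/
noncomputable def df (ν : @Measure (E ⧸ H) (borel (E ⧸ H))) (A : Set (E ⧸ H)) (g : E) : ℝ :=
  (ν ((fun x => g • x) ⁻¹' A \ A)).toReal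

/-- The hypothesis on the measure. -/
structure Inv (ν : @Measure (E ⧸ H) (borel (E ⧸ H))) : Prop where
  ne : ν ≠ 0
  fin : ν univ < ⊤
  inv : ∀ (g : E) (s : Set (E ⧸ H)), MeasurableSet[borel (E ⧸ H)] s →
    ν ((fun x => g • x) ⁻¹' s) = ν s

theorem Inv.lt {ν : @Measure (E ⧸ H) (borel (E ⧸ H))} (h : Inv ν) (s : Set (E ⧸ H)) :
    ν s < ⊤ := by
  letI : MeasurableSpace (E ⧸ H) := borel _
  exact lt_of_le_of_lt (measure_mono (subset_univ s)) h.fin

theorem meas_pre {A : Set (E ⧸ H)} (hA : IsClosed A) (g : E) :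
    MeasurableSet[borel (E ⧸ H)] ((fun x : E ⧸ H => g • x) ⁻¹' A) := by
  letI : MeasurableSpace (E ⧸ H) := borel _
  haveI : BorelSpace (E ⧸ H) := ⟨rfl⟩
  exact (hA.preimage (continuous_const_smul g)).measurableSet

theorem meas_cl {A : Set (E ⧸ H)} (hA : IsClosed A) : MeasurableSet[borel (E ⧸ H)] A := by
  letI : MeasurableSpace (E ⧸ H) := borel _
  haveI : BorelSpace (E ⧸ H) := ⟨rfl⟩
  exact hA.measurableSet

/-- `ν(A ∖ g⁻¹A) = ν(g⁻¹A ∖ A)` -/
theorem df_symm {ν : @Measure (E ⧸ H) (borel (E ⧸ H))} (h : Inv ν) {A : Set (E ⧸ H)}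
    (hA : IsClosed A) (g : E) :
    ν (A \ (fun x => g • x) ⁻¹' A) = ν ((fun x => g • x) ⁻¹' A \ A) := by
  letI : MeasurableSpace (E ⧸ H) := borel _
  haveI : BorelSpace (E ⧸ H) := ⟨rfl⟩
  have h1 : ν (A ∩ (fun x => g • x) ⁻¹' A) + ν (A \ (fun x => g • x) ⁻¹' A) = ν A :=
    measure_inter_add_diff A (meas_pre hA g)
  have h2 : ν ((fun x => g • x) ⁻¹' A ∩ A) + ν ((fun x => g • x) ⁻¹' A \ A) =
      ν ((fun x => g • x) ⁻¹' A) := measure_inter_add_diff _ (meas_cl hA)
  rw [h.inv g A (meas_cl hA), inter_comm] at h2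
  exact (ENNReal.add_right_inj (h.lt _).ne).1 (h1.trans h2.symm)

/-- **The defect is a length function.** -/
theorem len_df {ν : @Measure (E ⧸ H) (borel (E ⧸ H))} (h : Inv ν) {A : Set (E ⧸ H)}
    (hA : IsClosed A) : Len (df ν A) := by
  letI : MeasurableSpace (E ⧸ H) := borel _
  haveI : BorelSpace (E ⧸ H) := ⟨rfl⟩
  haveI : IsFiniteMeasure ν := ⟨h.fin⟩
  refine ⟨?_, fun g => ?_, fun g g' => ?_, ?_⟩
  · unfold df
    simp
  · unfold df
    congr 1
    have h1 : ν ((fun x => g⁻¹ • x) ⁻¹' A \ A) =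
        ν ((fun x => g • x) ⁻¹' ((fun x => g⁻¹ • x) ⁻¹' A \ A)) :=
      (h.inv g _ ((meas_pre hA g⁻¹).diff (meas_cl hA))).symm
    have h2 : (fun x : E ⧸ H => g • x) ⁻¹' ((fun x => g⁻¹ • x) ⁻¹' A \ A) =
        A \ (fun x => g • x) ⁻¹' A := by
      ext x
      simp [inv_smul_smul]
    rw [h1, h2, df_symm h hA]
  · unfold df
    rw [← ENNReal.toReal_add (h.lt _).ne (h.lt _).ne]
    refine ENNReal.toReal_mono (ENNReal.add_ne_top.2 ⟨(h.lt _).ne, (h.lt _).ne⟩) ?_
    have h1 : ν ((fun x => g • x) ⁻¹' A \ A) =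
        ν ((fun x => g' • x) ⁻¹' ((fun x => g • x) ⁻¹' A \ A)) :=
      (h.inv g' _ ((meas_pre hA g).diff (meas_cl hA))).symm
    rw [h1]
    refine (measure_mono ?_).trans (measure_union_le _ _)
    rintro x ⟨hx1, hx2⟩
    by_cases h3 : g' • x ∈ A
    · exact Or.inr ⟨h3, hx2⟩
    · refine Or.inl ⟨?_, h3⟩
      show g • g' • x ∈ A
      rw [smul_smul]
      exact hx1
  · rw [tendsto_iff_seq_tendsto]
    intro u hu
    have h1 : Tendsto (fun n => ν ((fun x => u n • x) ⁻¹' A \ A)) atTop (𝓝 (ν ∅)) := by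
      have h2 : ∀ n, ν ((fun x => u n • x) ⁻¹' A \ A) =
          ∫⁻ x, ((fun x => u n • x) ⁻¹' A \ A).indicator (fun _ => 1) x ∂ν := fun n => by
        rw [lintegral_indicator ((meas_pre hA (u n)).diff (meas_cl hA))]
        simp
      simp_rw [h2]
      have h3 : ν ∅ = ∫⁻ x, (fun _ => 0) x ∂ν := by simp
      rw [h3]
      refine tendsto_lintegral_of_dominated_convergence (fun _ => 1) ?_ ?_ ?_ ?_
      · intro n
        exact measurable_const.indicator ((meas_pre hA (u n)).diff (meas_cl hA))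
      · intro n
        exact Eventually.of_forall fun x => indicator_le (fun _ _ => le_rfl) x
      · simp only [lintegral_const, one_mul]
        exact (h.lt _).ne
      · refine Eventually.of_forall fun x => ?_
        refine tendsto_const_nhds.congr' ?_
        by_cases hx : x ∈ A
        · exact Eventually.of_forall fun n => (indicator_of_notMem (fun h => h.2 hx) _).symm
        · have h4 : Tendsto (fun n => u n • x) atTop (𝓝 ((1 : E) • x)) := by
            obtain ⟨y, rfl⟩ := QuotientGroup.mk_surjective x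
            have h5 : Tendsto (fun n => ((u n * y : E) : E ⧸ H)) atTop (𝓝 ((1 * y : E) : E ⧸ H)) :=
              (QuotientGroup.continuous_mk.tendsto _).comp (hu.mul_const y)
            exact h5
          rw [one_smul] at h4
          filter_upwards [h4.eventually (hA.isOpen_compl.mem_nhds hx)] with n hn
          exact (indicator_of_notMem (fun h => hn h.1) _).symm
    rw [measure_empty] at h1
    have h6 := (ENNReal.tendsto_toReal ENNReal.zero_ne_top).comp h1
    rw [ENNReal.toReal_zero] at h6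
    exact h6

/-- **Ergodicity.** -/
theorem df_zero {ν : @Measure (E ⧸ H) (borel (E ⧸ H))} (h : Inv ν) (hm : HMG E) {A : Set (E ⧸ H)}
    (hA : IsClosed A) {U : Ultrafilter E} (hU : (U : Filter E) ≤ cocompact E)
    (hUA : ∀ᶠ b in (U : Filter E), (fun x => b • x) ⁻¹' A = A) (g : E) : df ν A g = 0 := by
  have hl := len_df h hA
  refine hm U hU _ hl (fun g hg => ?_) g
  obtain ⟨γ, hγ, hγ1⟩ := hg
  have h0 : ∀ᶠ b in (U : Filter E), df ν A b = 0 := by
    filter_upwards [hUA] with b hb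
    unfold df
    rw [hb, diff_self]
    simp
  have h1 : Tendsto (fun b => df ν A (b⁻¹ * γ b * b)) (U : Filter E) (𝓝 0) := hl.cont.comp hγ1
  have h2 : Tendsto (fun b => df ν A (γ b)) (U : Filter E) (𝓝 0) := by
    refine tendsto_of_tendsto_of_tendsto_of_le_of_le' tendsto_const_nhds h1
      (Eventually.of_forall fun b => hl.nonneg _) ?_
    filter_upwards [h0] with b hb
    have h3 : γ b = b * (b⁻¹ * γ b * b) * b⁻¹ := by group
    calc df ν A (γ b) = df ν A (b * (b⁻¹ * γ b * b) * b⁻¹) := by rw [← h3]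
      _ ≤ df ν A (b * (b⁻¹ * γ b * b)) + df ν A b⁻¹ := hl.mul _ _
      _ ≤ (df ν A b + df ν A (b⁻¹ * γ b * b)) + df ν A b⁻¹ := by
        have := hl.mul b (b⁻¹ * γ b * b)
        linarith
      _ = df ν A (b⁻¹ * γ b * b) := by rw [hl.inv, hb]; ring
  have h3 : Tendsto (fun b => df ν A ((γ b)⁻¹ * g)) (U : Filter E) (𝓝 0) := by
    refine hl.cont.comp ?_
    have h4 := (hγ.inv).mul_const g
    rwa [inv_mul_cancel] at h4
  have h4 : Tendsto (fun b => df ν A (γ b) + df ν A ((γ b)⁻¹ * g)) (U : Filter E) (𝓝 0) := by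
    have := h2.add h3
    rwa [add_zero] at this
  refine le_antisymm (ge_of_tendsto h4 (Eventually.of_forall fun b => ?_)) (hl.nonneg g)
  calc df ν A g = df ν A (γ b * ((γ b)⁻¹ * g)) := by rw [mul_inv_cancel_left]
    _ ≤ _ := hl.mul _ _

/-- A closed set without defect is null or everything. -/
theorem univ_or_null {ν : @Measure (E ⧸ H) (borel (E ⧸ H))} (h : Inv ν) {A : Set (E ⧸ H)}
    (hA : IsClosed A) (h0 : ∀ g : E, df ν A g = 0) : A = univ ∨ ν A = 0 := by
  letI : MeasurableSpace (E ⧸ H) := borel _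
  haveI : BorelSpace (E ⧸ H) := ⟨rfl⟩
  by_cases hne : A = univ
  · exact Or.inl hne
  · right
    obtain ⟨u, hu⟩ : (Aᶜ).Nonempty := nonempty_compl.2 hne
    haveI : SecondCountableTopology (E ⧸ H) := inferInstance
    have hcov : (⋃ g : E, (fun x : E ⧸ H => g • x) ⁻¹' Aᶜ) = univ := by
      rw [eq_univ_iff_forall]
      intro x
      obtain ⟨x, rfl⟩ := QuotientGroup.mk_surjective x
      obtain ⟨u, rfl⟩ := QuotientGroup.mk_surjective u
      refine mem_iUnion.2 ⟨u * x⁻¹, ?_⟩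
      show ((u * x⁻¹ * x : E) : E ⧸ H) ∈ Aᶜ
      rw [inv_mul_cancel_right]
      exact hu
    obtain ⟨T, hT, hTu⟩ := TopologicalSpace.isOpen_iUnion_countable
      (fun g : E => (fun x : E ⧸ H => g • x) ⁻¹' Aᶜ)
      fun g => hA.isOpen_compl.preimage (continuous_const_smul g)
    have h1 : A ⊆ ⋃ g ∈ T, (A \ (fun x : E ⧸ H => g • x) ⁻¹' A) := by
      intro x hx
      have h2 : x ∈ ⋃ g ∈ T, (fun x : E ⧸ H => g • x) ⁻¹' Aᶜ := by
        rw [hTu, hcov]
        exact mem_univ x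
      obtain ⟨g, hg, h3⟩ := mem_iUnion₂.1 h2
      exact mem_iUnion₂.2 ⟨g, hg, hx, h3⟩
    refine measure_mono_null h1 ((measure_biUnion_null_iff hT).2 fun g _ => ?_)
    rw [df_symm h hA]
    have h2 := h0 g
    unfold df at h2
    rcases (ENNReal.toReal_eq_zero_iff _).1 h2 with h3 | h3
    · exact h3
    · exact absurd h3 (h.lt _).ne

/-- **A common element of all conjugates.** -/
theorem exists_common [T2Space E] {ν : @Measure (E ⧸ H) (borel (E ⧸ H))} (h : Inv ν) (hm : HMG E)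
    (hH : IsClosed (H : Set E)) {C : Set E} (hC : IsCompact C) (hpos : ν (Fx H C) ≠ 0)
    {U : Ultrafilter E} (hU : (U : Filter E) ≤ cocompact E)
    (hUC : ∀ᶠ b in (U : Filter E), ∀ c ∈ C, b * c = c * b) : ∃ z ∈ C, ∀ g : E, g⁻¹ * z * g ∈ H := by
  letI : MeasurableSpace (E ⧸ H) := borel _
  haveI : BorelSpace (E ⧸ H) := ⟨rfl⟩
  have hdich : ∀ C' ⊆ C, IsCompact C' → Fx H C' = univ ∨ ν (Fx H C') = 0 := by
    intro C' hC' hc
    have hcl := isClosed_fx hH hc
    refine univ_or_null h hcl (df_zero h hm hcl hU ?_)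
    filter_upwards [hUC] with b hb
    ext x
    constructor
    · rintro ⟨c, hc, h1⟩
      refine ⟨c, hc, ?_⟩
      have h2 : b • c • x = b • x := by
        rw [smul_smul, hb c (hC' hc), ← smul_smul]
        exact h1
      exact (MulAction.injective b) h2
    · rintro ⟨c, hc, h1⟩
      refine ⟨c, hc, ?_⟩
      show c • b • x = b • x
      rw [smul_smul, ← hb c (hC' hc), ← smul_smul, h1]
  by_cases hz : ∃ z ∈ C, ∀ O : Set E, IsOpen O → z ∈ O → ν (Fx H (C ∩ closure O)) ≠ 0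
  · obtain ⟨z, hzC, hz⟩ := hz
    refine ⟨z, hzC, fun g => ?_⟩
    rw [← smul_mk_eq]
    by_contra hne
    have hS := isClosed_stab hH (g : E ⧸ H)
    have hn : {c : E | c • (g : E ⧸ H) = (g : E ⧸ H)}ᶜ ∈ 𝓝 z := hS.isOpen_compl.mem_nhds hne
    obtain ⟨V, hV, hVc, hVs⟩ := exists_mem_nhds_isClosed_subset hn
    have h1 : ν (Fx H (C ∩ closure (interior V))) ≠ 0 :=
      hz _ isOpen_interior (mem_interior_iff_mem_nhds.2 hV)
    have h2 := (hdich _ inter_subset_left (hC.inter_right isClosed_closure)).resolve_right h1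
    have h3 : (g : E ⧸ H) ∈ Fx H (C ∩ closure (interior V)) := by
      rw [h2]
      exact mem_univ _
    obtain ⟨c, ⟨-, hc⟩, h4⟩ := h3
    have h5 : c ∈ V := closure_minimal interior_subset hVc hc
    exact hVs h5 h4
  · exfalso
    push Not at hz
    choose! O hO hzO h0 using hz
    obtain ⟨s, hs, hsC⟩ := hC.elim_nhds_subcover O fun z hz => (hO z hz).mem_nhds (hzO z hz)
    apply hpos
    have h1 : Fx H C ⊆ ⋃ z ∈ s, Fx H (C ∩ closure (O z)) := by
      rw [← fx_union]
      refine fx_mono fun c hc => ?_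
      obtain ⟨z, hz, hcz⟩ := mem_iUnion₂.1 (hsC hc)
      exact mem_iUnion₂.2 ⟨z, hz, hc, subset_closure hcz⟩
    refine measure_mono_null h1 ?_
    refine (measure_biUnion_null_iff s.countable_toSet).2 fun z hz => ?_
    exact h0 z (hs z hz)

end meas

end Vale.Agent.P092.H144.Nc
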