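import Mathlib.Data.Matrix.Basic
import Mathlib.Data.Matrix.Diagonal
import Mathlib.Algebra.Ring.GeomSum
import Mathlib.LinearAlgebra.Matrix.Notation
import Mathlib.Topology.Algebra.Group.Basic
import Mathlib.Topology.Instances.Matrix
import Mathlib.Analysis.Normed.Field.Basic
import Mathlib.Analysis.Normed.Module.FiniteDimension

/-!
P092, project ND, [ND-CL] (helper144), part 2: the filtration of matrices by weights.
-/

set_option linter.all false

open Filter Topology Set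

namespace Vale.Agent.P092.H144.Nc

section ring

variable {ι D : Type} [Fintype ι] [DecidableEq ι] [Ring D] {w : ι → ℤ}

/-- Matrices whose entries have weight at least `d`. -/
def WW (D : Type) [Ring D] (w : ι → ℤ) (d : ℤ) : Set (Matrix ι ι D) :=
  {M | ∀ p q, w p - w q < d → M p q = 0}

theorem ww_mul {d e : ℤ} {M N : Matrix ι ι D} (hM : M ∈ WW D w d) (hN : N ∈ WW D w e) :
    M * N ∈ WW D w (d + e) := by
  intro p q h
  rw [Matrix.mul_apply]
  refine Finset.sum_eq_zero fun r _ => ?_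
  by_cases h1 : w p - w r < d
  · rw [hM p r h1, zero_mul]
  · rw [hN r q (by omega), mul_zero]

theorem ww_mono {d e : ℤ} (h : d ≤ e) {M : Matrix ι ι D} (hM : M ∈ WW D w e) : M ∈ WW D w d :=
  fun p q h1 => hM p q (by omega)

theorem ww_add {d : ℤ} {M N : Matrix ι ι D} (hM : M ∈ WW D w d) (hN : N ∈ WW D w d) :
    M + N ∈ WW D w d := fun p q h => by
  rw [Matrix.add_apply, hM p q h, hN p q h, add_zero]

theorem ww_sub {d : ℤ} {M N : Matrix ι ι D} (hM : M ∈ WW D w d) (hN : N ∈ WW D w d) :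
    M - N ∈ WW D w d := fun p q h => by
  rw [Matrix.sub_apply, hM p q h, hN p q h, sub_zero]

theorem ww_neg {d : ℤ} {M : Matrix ι ι D} (hM : M ∈ WW D w d) : -M ∈ WW D w d := fun p q h => by
  rw [Matrix.neg_apply, hM p q h, neg_zero]

theorem ww_one : (1 : Matrix ι ι D) ∈ WW D w 0 := fun p q h => by
  refine Matrix.one_apply_ne ?_
  rintro rfl
  omega

theorem ww_sum {d : ℤ} {T : Type} (s : Finset T) (f : T → Matrix ι ι D)
    (h : ∀ i ∈ s, f i ∈ WW D w d) : ∑ i ∈ s, f i ∈ WW D w d := fun p q h1 => by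
  rw [Matrix.sum_apply]
  exact Finset.sum_eq_zero fun i hi => h i hi p q h1

theorem ww_pow {M : Matrix ι ι D} (hM : M ∈ WW D w 1) (n : ℕ) : M ^ n ∈ WW D w n := by
  induction n with
  | zero => rw [pow_zero]; exact_mod_cast ww_one
  | succ n ih =>
    rw [pow_succ]
    have h := ww_mul ih hM
    exact_mod_cast h

theorem ww_big (w : ι → ℤ) : ∃ K : ℕ, ∀ M : Matrix ι ι D, M ∈ WW D w K → M = 0 := by
  refine ⟨∑ p, ∑ q, (w p - w q).natAbs + 1, fun M hM => ?_⟩
  ext p q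
  refine hM p q ?_
  have h1 : (w p - w q).natAbs ≤ ∑ q, (w p - w q).natAbs :=
    Finset.single_le_sum (f := fun q => (w p - w q).natAbs) (fun _ _ => Nat.zero_le _)
      (Finset.mem_univ q)
  have h2 : ∑ q, (w p - w q).natAbs ≤ ∑ p, ∑ q, (w p - w q).natAbs :=
    Finset.single_le_sum (f := fun p => ∑ q, (w p - w q).natAbs) (fun _ _ => Nat.zero_le _)
      (Finset.mem_univ p)
  have h3 : (w p - w q) ≤ ((w p - w q).natAbs : ℤ) := Int.le_natAbs
  have h4 : ((w p - w q).natAbs : ℤ) ≤ ((∑ p, ∑ q, (w p - w q).natAbs : ℕ) : ℤ) :=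
    Nat.cast_le.2 (h1.trans h2)
  rw [Nat.cast_add, Nat.cast_one]
  omega

variable {E : Type} [Group E] (Φ : E →* Matrix ι ι D)

/-- The unipotent subgroup of positive weights. -/
def Up (w : ι → ℤ) : Set E := {g | Φ g - 1 ∈ WW D w 1}

variable {Φ}

theorem up_zero {d : ℤ} (hd : 1 ≤ d) {g : E} (hg : Φ g - 1 ∈ WW D w d) : Φ g ∈ WW D w 0 := by
  have h := ww_add (ww_mono (by omega : (0 : ℤ) ≤ d) hg) (ww_one (w := w) (D := D))
  rwa [sub_add_cancel] at h

theorem up_inv_zero {g : E} (hg : g ∈ Up Φ w) : Φ g⁻¹ ∈ WW D w 0 := by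
  obtain ⟨K, hK⟩ := ww_big (D := D) w
  set Y : Matrix ι ι D := 1 - Φ g with hY
  have hY1 : Y ∈ WW D w 1 := by
    have h := ww_neg hg
    rwa [neg_sub] at h
  have h1 : (1 - Y) * ∑ i ∈ Finset.range K, Y ^ i = 1 := by
    rw [mul_neg_geom_sum, hK _ (ww_pow hY1 K), sub_zero]
  have h2 : (1 : Matrix ι ι D) - Y = Φ g := by rw [hY]; abel
  rw [h2] at h1
  have h3 : Φ g⁻¹ = ∑ i ∈ Finset.range K, Y ^ i := by
    calc Φ g⁻¹ = Φ g⁻¹ * (Φ g * ∑ i ∈ Finset.range K, Y ^ i) := by rw [h1, mul_one]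
      _ = ∑ i ∈ Finset.range K, Y ^ i := by
        rw [← mul_assoc, ← map_mul, inv_mul_cancel, map_one, one_mul]
  rw [h3]
  exact ww_sum _ _ fun i _ => ww_mono (by positivity) (ww_pow hY1 i)

theorem up_comm {d : ℤ} (hd : 1 ≤ d) {g h : E} (hg : Φ g - 1 ∈ WW D w d) (hh : h ∈ Up Φ w) :
    Φ (g * h * g⁻¹ * h⁻¹) - 1 ∈ WW D w (d + 1) := by
  have hg1 : g ∈ Up Φ w := ww_mono hd hg
  have e : Φ (g * h * g⁻¹ * h⁻¹) - 1 =
      (((Φ g - 1) * (Φ h - 1) - (Φ h - 1) * (Φ g - 1)) * Φ g⁻¹) * Φ h⁻¹ := by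
    have e1 : (Φ g - 1) * (Φ h - 1) - (Φ h - 1) * (Φ g - 1) = Φ (g * h) - Φ (h * g) := by
      rw [map_mul, map_mul]
      noncomm_ring
    rw [e1, sub_mul, sub_mul, ← map_mul, ← map_mul, ← map_mul, ← map_mul]
    have e2 : h * g * g⁻¹ * h⁻¹ = 1 := by group
    rw [e2, map_one]
  rw [e]
  have h1 := ww_mul hg hh
  have h2 := ww_mul hh hg
  rw [add_comm] at h2
  have h3 := ww_mul (ww_mul (ww_sub h1 h2) (up_inv_zero hg1)) (up_inv_zero hh)
  rwa [add_zero, add_zero] at h3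

/-- **A nontrivial element of the centre of `Up`.** -/
theorem exists_central (hinj : Function.Injective Φ) {g : E} (hg : g ∈ Up Φ w) (h1 : g ≠ 1) :
    ∃ g₀ ∈ Up Φ w, g₀ ≠ 1 ∧ ∀ h ∈ Up Φ w, g₀ * h = h * g₀ := by
  by_contra hcon
  push Not at hcon
  have key : ∀ d : ℕ, ∃ g : E, g ≠ 1 ∧ Φ g - 1 ∈ WW D w ((d : ℤ) + 1) := by
    intro d
    induction d with
    | zero => exact ⟨g, h1, by rw [Nat.cast_zero, zero_add]; exact hg⟩
    | succ d ih =>
      obtain ⟨x, hx1, hx⟩ := ih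
      obtain ⟨h, hh, hne⟩ := hcon x (ww_mono (by omega) hx) hx1
      refine ⟨x * h * x⁻¹ * h⁻¹, fun h0 => hne ?_, ?_⟩
      · have h2 : x * h = 1 * h * x := by
          rw [← h0]
          group
        rwa [one_mul] at h2
      · have h3 := up_comm (by omega) hx hh
        exact_mod_cast h3
  obtain ⟨K, hK⟩ := ww_big (D := D) w
  obtain ⟨x, hx1, hx⟩ := key K
  have h2 : Φ x - 1 = 0 := hK _ (ww_mono (by omega) hx)
  exact hx1 (hinj (by rw [map_one]; exact sub_eq_zero.1 h2))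

theorem up_entry {g : E} (hg : g ∈ Up Φ w) {p q : ι} (h : w p ≤ w q) :
    Φ g p q = (1 : Matrix ι ι D) p q := by
  have h1 := hg p q (by omega)
  rwa [Matrix.sub_apply, sub_eq_zero] at h1

theorem exists_entry (hinj : Function.Injective Φ) {g : E} (hg : g ∈ Up Φ w) (h1 : g ≠ 1) :
    ∃ p q, w q < w p ∧ Φ g p q ≠ 0 := by
  by_contra hcon
  push Not at hcon
  refine h1 (hinj ?_)
  rw [map_one]
  ext p q
  by_cases h : w p ≤ w q
  · exact up_entry hg h
  · rw [hcon p q (by omega), Matrix.one_apply_ne]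
    rintro rfl
    exact h le_rfl

end ring

section alg

variable {ι D k : Type} [Fintype ι] [DecidableEq ι] [DivisionRing D] [Field k] [Algebra k D]
  {w : ι → ℤ} {E : Type} [Group E] {Φ : E →* Matrix ι ι D} {t : k} {a : E}

theorem pow_diag (ha : Φ a = Matrix.diagonal fun i => algebraMap k D (t ^ w i)) (n : ℕ) :
    Φ (a ^ n) = Matrix.diagonal fun i => algebraMap k D (t ^ ((n : ℤ) * w i)) := by
  rw [map_pow, ha, Matrix.diagonal_pow]
  congr 1
  ext i
  rw [Pi.pow_apply, ← map_pow, ← zpow_natCast, ← zpow_mul, mul_comm]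

theorem pow_inv_diag (ht : t ≠ 0)
    (ha : Φ a = Matrix.diagonal fun i => algebraMap k D (t ^ w i)) (n : ℕ) :
    Φ (a ^ n)⁻¹ = Matrix.diagonal fun i => algebraMap k D (t ^ (-((n : ℤ) * w i))) := by
  have h1 : Φ (a ^ n) * Matrix.diagonal (fun i => algebraMap k D (t ^ (-((n : ℤ) * w i)))) = 1 := by
    rw [pow_diag ha, Matrix.diagonal_mul_diagonal]
    have : (fun i => algebraMap k D (t ^ ((n : ℤ) * w i)) *
        algebraMap k D (t ^ (-((n : ℤ) * w i)))) = fun _ => (1 : D) := by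
      ext i
      rw [← map_mul, ← zpow_add₀ ht, add_neg_cancel, zpow_zero, map_one]
    rw [this, Matrix.diagonal_one]
  calc Φ (a ^ n)⁻¹ = Φ (a ^ n)⁻¹ *
        (Φ (a ^ n) * Matrix.diagonal (fun i => algebraMap k D (t ^ (-((n : ℤ) * w i))))) := by
        rw [h1, mul_one]
    _ = _ := by rw [← mul_assoc, ← map_mul, inv_mul_cancel, map_one, one_mul]

/-- Conjugation by the torus. -/
theorem conj_entry (ht : t ≠ 0)
    (ha : Φ a = Matrix.diagonal fun i => algebraMap k D (t ^ w i)) (n : ℕ) (g : E) (p q : ι) :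
    Φ (a ^ n * g * (a ^ n)⁻¹) p q = t ^ ((n : ℤ) * (w p - w q)) • Φ g p q := by
  rw [map_mul, map_mul, pow_diag ha, pow_inv_diag ht ha, Matrix.mul_diagonal,
    Matrix.diagonal_mul, mul_assoc, ← Algebra.commutes, ← mul_assoc, ← map_mul, ← zpow_add₀ ht,
    Algebra.smul_def]
  congr 3
  ring

theorem up_conj (ht : t ≠ 0)
    (ha : Φ a = Matrix.diagonal fun i => algebraMap k D (t ^ w i)) (n : ℕ) {g : E} :
    (a ^ n)⁻¹ * g * a ^ n ∈ Up Φ w ↔ g ∈ Up Φ w := by
  have h0 : ∀ x : E, x ∈ Up Φ w ↔ a ^ n * x * (a ^ n)⁻¹ ∈ Up Φ w := by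
    intro x
    refine forall_congr' fun p => forall_congr' fun q => forall_congr' fun h => ?_
    rw [Matrix.sub_apply, Matrix.sub_apply, conj_entry ht ha, sub_eq_zero, sub_eq_zero]
    by_cases hpq : p = q
    · subst hpq
      simp
    · rw [Matrix.one_apply_ne hpq]
      constructor
      · intro h
        rw [h, smul_zero]
      · intro h
        rcases smul_eq_zero.1 h with h1 | h1
        · exact absurd h1 (zpow_ne_zero _ ht)
        · exact h1
  rw [h0 ((a ^ n)⁻¹ * g * a ^ n)]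
  rw [show a ^ n * ((a ^ n)⁻¹ * g * a ^ n) * (a ^ n)⁻¹ = g by group]

end alg

section top

variable {ι D k : Type} [Fintype ι] [DecidableEq ι] [NormedDivisionRing D]
  [NontriviallyNormedField k] [NormedAlgebra k D]
  {w : ι → ℤ} {E : Type} [Group E] [TopologicalSpace E] {Φ : E →* Matrix ι ι D} {t : k} {a : E}

/-- Conjugates by the torus of elements of `Up` are unbounded. -/
theorem tendsto_conj (hc : Continuous Φ) (hinj : Function.Injective Φ) (ht : 1 < ‖t‖)
    (ha : Φ a = Matrix.diagonal fun i => algebraMap k D (t ^ w i)) {g : E} (hg : g ∈ Up Φ w)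
    (h1 : g ≠ 1) : Tendsto (fun n : ℕ => a ^ n * g * (a ^ n)⁻¹) atTop (cocompact E) := by
  have ht0 : t ≠ 0 := norm_pos_iff.1 (by linarith)
  obtain ⟨p, q, hpq, hne⟩ := exists_entry hinj hg h1
  rw [(hasBasis_cocompact).tendsto_right_iff]
  intro K hK
  have hcont : Continuous fun x : E => ‖Φ x p q‖ := (hc.matrix_elem p q).norm
  obtain ⟨M, hM⟩ := (hK.image hcont).bddAbove
  have h2 : Tendsto (fun n : ℕ => ‖t‖ ^ n * ‖Φ g p q‖) atTop atTop :=
    (tendsto_pow_atTop_atTop_of_one_lt ht).atTop_mul_const (norm_pos_iff.2 hne)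
  filter_upwards [h2.eventually (eventually_gt_atTop M)] with n hn hmem
  have h3 : ‖Φ (a ^ n * g * (a ^ n)⁻¹) p q‖ ≤ M := hM ⟨_, hmem, rfl⟩
  rw [conj_entry ht0 ha, norm_smul, norm_zpow] at h3
  have h4 : ‖t‖ ^ n ≤ ‖t‖ ^ ((n : ℤ) * (w p - w q)) := by
    rw [← zpow_natCast]
    refine zpow_le_zpow_right₀ ht.le ?_
    nlinarith [Int.natCast_nonneg n]
  have h5 := mul_le_mul_of_nonneg_right h4 (norm_nonneg (Φ g p q))
  linarith

end top

end Vale.Agent.P092.H144.Nc
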