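import Vale.Agent.P092.H144.Nc.Erg
import Vale.Agent.P092.H144.Nc.Wt
import Mathlib.Topology.ContinuousMap.Compact
import Mathlib.Analysis.Normed.Module.FiniteDimension
import Mathlib.Order.Filter.Ultrafilter.Basic

/-!
P092, project ND, [ND-CL] (helper144), part 3: closed nondiscrete subgroups of finite covolume of linear
groups: the fixed point set of a compact set of unipotent elements has positive measure.
-/

set_option linter.all false

open Filter Topology MeasureTheory Set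

namespace Vale.Agent.P092.H144.Nc

section lin

variable {E : Type} [Group E] [TopologicalSpace E] [IsTopologicalGroup E] [T2Space E]
  [LocallyCompactSpace E] [SecondCountableTopology E]
  {k D ι : Type} [NontriviallyNormedField k] [ProperSpace k] [NormedDivisionRing D]
  [NormedAlgebra k D] [FiniteDimensional k D] [Fintype ι] [DecidableEq ι]
  {Φ : E →* Matrix ι ι D} {w : ι → ℤ} {t : k} {a : E}

/-- A compact neighbourhood of `1` contained in the closure of its interior. -/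
theorem exists_nbhd (E : Type) [Group E] [TopologicalSpace E] [T2Space E]
    [LocallyCompactSpace E] : ∃ B : Set E, IsCompact B ∧ B ∈ 𝓝 (1 : E) ∧
      B ⊆ closure (interior B) := by
  obtain ⟨K, hK, hK1⟩ := exists_compact_mem_nhds (1 : E)
  have hcl : closure (interior K) ⊆ K := closure_minimal interior_subset hK.isClosed
  refine ⟨closure (interior K), hK.of_isClosed_subset isClosed_closure hcl, ?_, ?_⟩
  · exact mem_of_superset (interior_mem_nhds.2 hK1) subset_closure
  · exact closure_mono (interior_maximal subset_closure isOpen_interior)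

/-- The compact sets. -/
def RR (Φ : E →* Matrix ι ι D) (w : ι → ℤ) (i j : ι) (κ δ : ℝ) : Set E :=
  {g | (∀ p q, w q < w p → ‖Φ g p q‖ ≤ 1) ∧ κ ≤ ‖Φ g i j‖ ∧
    ∀ p q, w p ≤ w q → ‖Φ g p q - (1 : Matrix ι ι D) p q‖ ≤ δ}

theorem isClosed_rr (hc : Continuous Φ) (i j : ι) (κ δ : ℝ) : IsClosed (RR Φ w i j κ δ) := by
  have he : ∀ p q, Continuous fun g : E => Φ g p q := fun p q => hc.matrix_elem p q
  refine IsClosed.inter (s₁ := {g : E | ∀ p q, w q < w p → ‖Φ g p q‖ ≤ 1}) ?_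
    (IsClosed.inter (s₁ := {g : E | κ ≤ ‖Φ g i j‖})
      (s₂ := {g : E | ∀ p q, w p ≤ w q → ‖Φ g p q - (1 : Matrix ι ι D) p q‖ ≤ δ}) ?_ ?_)
  · simp only [setOf_forall]
    exact isClosed_iInter fun p => isClosed_iInter fun q => isClosed_iInter fun _ =>
      isClosed_le (he p q).norm continuous_const
  · exact isClosed_le continuous_const (he i j).norm
  · simp only [setOf_forall]
    exact isClosed_iInter fun p => isClosed_iInter fun q => isClosed_iInter fun _ =>
      isClosed_le ((he p q).sub continuous_const).norm continuous_const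

theorem isCompact_rr [ProperSpace D] (hΦ : IsClosedEmbedding Φ) (i j : ι) (κ δ : ℝ) :
    IsCompact (RR Φ w i j κ δ) := by
  have h1 : IsCompact {M : Matrix ι ι D | ∀ p ∈ (univ : Set ι), M p ∈
      {v : ι → D | ∀ q ∈ (univ : Set ι), v q ∈ Metric.closedBall (0 : D) (2 + |δ|)}} := by
    refine isCompact_univ_pi fun p => ?_
    exact isCompact_univ_pi fun q => isCompact_closedBall _ _
  refine (hΦ.isCompact_preimage h1).of_isClosed_subset (isClosed_rr hΦ.continuous i j κ δ) ?_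
  rintro g ⟨hg1, -, hg2⟩ p - q -
  rw [mem_closedBall_zero_iff]
  by_cases h : w q < w p
  · exact (hg1 p q h).trans (by linarith [abs_nonneg δ])
  · have h2 := hg2 p q (by omega)
    have h3 : ‖(1 : Matrix ι ι D) p q‖ ≤ 1 := by
      rw [Matrix.one_apply]
      split_ifs
      · rw [norm_one]
      · rw [norm_zero]; exact zero_le_one
    calc ‖Φ g p q‖ = ‖(Φ g p q - (1 : Matrix ι ι D) p q) + (1 : Matrix ι ι D) p q‖ := by
          rw [sub_add_cancel]
      _ ≤ δ + 1 := (norm_add_le _ _).trans (add_le_add h2 h3)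
      _ ≤ 2 + |δ| := by linarith [le_abs_self δ]

variable (k) in
/-- Functions on `B`: the entries of `b v b⁻¹`. -/
noncomputable def TT (hc : Continuous Φ) (B : Set E) (i j : ι) :
    Matrix ι ι D →ₗ[k] C(B, D) where
  toFun v := ⟨fun b => (Φ (b : E) * v * Φ (b : E)⁻¹) i j, by
    have h1 : Continuous fun b : B => Φ (b : E) := hc.comp continuous_subtype_val
    have h2 : Continuous fun b : B => Φ (b : E)⁻¹ := hc.comp (continuous_subtype_val.inv)
    exact ((h1.matrix_mul continuous_const).matrix_mul h2).matrix_elem i j⟩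
  map_add' v v' := by
    ext b
    show (Φ (b : E) * (v + v') * Φ (b : E)⁻¹) i j = _
    rw [mul_add, add_mul]
    rfl
  map_smul' c v := by
    ext b
    show (Φ (b : E) * (c • v) * Φ (b : E)⁻¹) i j = _
    rw [mul_smul_comm, smul_mul_assoc]
    rfl

theorem tt_apply (hc : Continuous Φ) (B : Set E) (i j : ι) (v : Matrix ι ι D) (b : B) :
    TT k hc B i j v b = (Φ (b : E) * v * Φ (b : E)⁻¹) i j := rfl

/-- **One open set.** An ultrafilter family of bounded entries functions, whose norms are bounded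
below, is bounded below on a fixed open set. -/
theorem exists_open (k : Type) [NontriviallyNormedField k] [ProperSpace k] [NormedAlgebra k D]
    [FiniteDimensional k D] (hc : Continuous Φ) {B : Set E} (hB : IsCompact B)
    (hBc : B ⊆ closure (interior B)) (i j : ι) {κ : ℝ} (hκ : 0 < κ) {T : Type} (𝒰 : Ultrafilter T)
    (v : T → Matrix ι ι D)
    (h1 : ∀ᶠ y in (𝒰 : Filter T), ∀ b ∈ B, ‖(Φ b * v y * Φ b⁻¹) i j‖ ≤ 1)
    (h2 : ∀ᶠ y in (𝒰 : Filter T), ∃ b ∈ B, κ ≤ ‖(Φ b * v y * Φ b⁻¹) i j‖) :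
    ∃ O : Set E, IsOpen O ∧ O.Nonempty ∧ O ⊆ B ∧
      ∀ᶠ y in (𝒰 : Filter T), ∀ b ∈ O, κ / 4 ≤ ‖(Φ b * v y * Φ b⁻¹) i j‖ := by
  haveI : CompactSpace B := isCompact_iff_compactSpace.1 hB
  haveI : Module.Finite k (Matrix ι ι D) := inferInstanceAs (Module.Finite k (ι → ι → D))
  set F : Submodule k C(B, D) := LinearMap.range (TT k hc B i j) with hF
  haveI : FiniteDimensional k F := inferInstance
  haveI : ProperSpace F := FiniteDimensional.proper k F
  set P : T → F := fun y => ⟨TT k hc B i j (v y), ⟨v y, rfl⟩⟩ with hP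
  have hP1 : ∀ᶠ y in (𝒰 : Filter T), P y ∈ Metric.closedBall (0 : F) 1 := by
    filter_upwards [h1] with y hy
    rw [mem_closedBall_zero_iff]
    show ‖TT k hc B i j (v y)‖ ≤ 1
    rw [ContinuousMap.norm_le _ zero_le_one]
    exact fun b => hy b b.2
  obtain ⟨Q, hQ, hQ1⟩ := (isCompact_closedBall (0 : F) 1).ultrafilter_le_nhds (𝒰.map P)
    (le_principal_iff.2 hP1)
  have hQ2 : Tendsto P (𝒰 : Filter T) (𝓝 Q) := hQ1
  have hQn : κ ≤ ‖Q‖ := by
    refine ge_of_tendsto hQ2.norm ?_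
    filter_upwards [h2] with y hy
    obtain ⟨b, hb, h3⟩ := hy
    exact h3.trans (ContinuousMap.norm_coe_le_norm (TT k hc B i j (v y)) ⟨b, hb⟩)
  obtain ⟨b₀, hb₀⟩ : ∃ b : B, κ / 2 < ‖(Q : C(B, D)) b‖ := by
    by_contra hcon
    push Not at hcon
    have h3 : ‖(Q : C(B, D))‖ ≤ κ / 2 := (ContinuousMap.norm_le _ (by linarith)).2 hcon
    have h4 : ‖Q‖ = ‖(Q : C(B, D))‖ := rfl
    linarith
  have hop : IsOpen {b : B | κ / 2 < ‖(Q : C(B, D)) b‖} :=
    isOpen_lt continuous_const (Q : C(B, D)).continuous.norm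
  obtain ⟨V, hV, hVe⟩ := isOpen_induced_iff.1 hop
  have hbV : (b₀ : E) ∈ V := by
    have : b₀ ∈ Subtype.val ⁻¹' V := by rw [hVe]; exact hb₀
    exact this
  refine ⟨V ∩ interior B, hV.inter isOpen_interior, ?_, fun x hx => interior_subset hx.2, ?_⟩
  · exact mem_closure_iff.1 (hBc b₀.2) V hV hbV
  · have h3 : ∀ᶠ y in (𝒰 : Filter T), ‖P y - Q‖ < κ / 4 := by
      have h4 := (tendsto_iff_norm_sub_tendsto_zero.1 hQ2)
      exact h4.eventually_lt_const (by linarith)
    filter_upwards [h3] with y hy b hb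
    have hbB : b ∈ B := interior_subset hb.2
    have h5 : κ / 2 < ‖(Q : C(B, D)) ⟨b, hbB⟩‖ := by
      have : (⟨b, hbB⟩ : B) ∈ Subtype.val ⁻¹' V := hb.1
      rw [hVe] at this
      exact this
    have h6 : ‖((P y : C(B, D)) - (Q : C(B, D))) ⟨b, hbB⟩‖ ≤ ‖P y - Q‖ :=
      ContinuousMap.norm_coe_le_norm ((P y : C(B, D)) - (Q : C(B, D))) ⟨b, hbB⟩
    have h7 : ‖(Q : C(B, D)) ⟨b, hbB⟩‖ ≤ ‖(P y : C(B, D)) ⟨b, hbB⟩‖ +
        ‖((P y : C(B, D)) - (Q : C(B, D))) ⟨b, hbB⟩‖ := by
      rw [ContinuousMap.sub_apply]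
      calc ‖(Q : C(B, D)) ⟨b, hbB⟩‖ = ‖(P y : C(B, D)) ⟨b, hbB⟩ -
            ((P y : C(B, D)) ⟨b, hbB⟩ - (Q : C(B, D)) ⟨b, hbB⟩)‖ := by rw [sub_sub_cancel]
        _ ≤ _ := norm_sub_le _ _
    show κ / 4 ≤ ‖(P y : C(B, D)) ⟨b, hbB⟩‖
    linarith

/-- Conjugates of elements close to `1` by a compact set are uniformly close to `1`. -/
theorem unif_small (hc : Continuous Φ) {B : Set E} (hB : IsCompact B) {δ : ℝ} (hδ : 0 < δ) :
    ∀ᶠ y in 𝓝 (1 : E), ∀ b ∈ B, ∀ p q, ‖Φ (b * y * b⁻¹) p q - (1 : Matrix ι ι D) p q‖ < δ := by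
  have h1 : ∀ p q : ι, ∀ᶠ y in 𝓝 (1 : E), ∀ b ∈ B,
      ‖Φ (b * y * b⁻¹) p q - (1 : Matrix ι ι D) p q‖ < δ := by
    intro p q
    refine hB.eventually_forall_of_forall_eventually fun b _ => ?_
    have h2 : Continuous fun z : E × E => ‖Φ (z.2 * z.1 * z.2⁻¹) p q - (1 : Matrix ι ι D) p q‖ :=
      (((hc.comp (by fun_prop : Continuous fun z : E × E => z.2 * z.1 * z.2⁻¹)).matrix_elem
        p q).sub continuous_const).norm
    have h3 := h2.tendsto ((1 : E), b)
    have h4 : ‖Φ (b * 1 * b⁻¹) p q - (1 : Matrix ι ι D) p q‖ = 0 := by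
      rw [mul_one, mul_inv_cancel, map_one, sub_self, norm_zero]
    simp only at h3
    rw [h4] at h3
    exact h3.eventually_lt_const hδ
  have h2 : ∀ᶠ y in 𝓝 (1 : E), ∀ p q : ι, ∀ b ∈ B,
      ‖Φ (b * y * b⁻¹) p q - (1 : Matrix ι ι D) p q‖ < δ :=
    Filter.eventually_all.2 fun p => Filter.eventually_all.2 fun q => h1 p q
  filter_upwards [h2] with y hy b hb p q
  exact hy p q b hb

end lin

end Vale.Agent.P092.H144.Nc
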