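import Vale.Agent.P092.H144.Nc.Main
import Vale.Agent.P092.H793.Nc.Dat
import Vale.Agent.P092.H793.Nc.Pass
import Vale.Agent.P092.H465.DAG
import Vale.Agent.P092.H465.DAE
import Vale.Agent.P092.H465.DCh
import Vale.Agent.P092.UN.Cls

/-!
P092, project ND, [ND-CL] (helper144), part 5: `SL_n(D)` and its central quotients.
-/

set_option linter.all false

open Filter Topology MeasureTheory Set Matrix

namespace Vale.Agent.P092.H144.Nc

open Vale.Agent.P092.H213.Nd (ND)
open Vale.Agent.P092.QC (QF)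
open Vale.Agent.P092.H793.Nc (Dat Pol W mem_W_of_fam neBot_univ dat_of_W nd_quo)
open Vale.Agent.P092.H933 (LocK)
open Vale.Agent.P092.H465.DA

/-- From the linear data. -/
theorem nd_of_dat {E : Type} [Group E] [TopologicalSpace E] {r : ℕ} (h : QF E r) (hd : Dat E) :
    ND E := by
  obtain ⟨k, _, _, D, _, _, _, ι, _, _, Φ, w, t, a, hΦ, ht, ha, hNZ⟩ := hd
  exact nd_of_lin h Φ hΦ w t ht a ha hNZ

section sld

variable (k : Type) [NontriviallyNormedField k] [ProperSpace k]
variable (D : Type) [NormedDivisionRing D] [NormedAlgebra k D]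
  [FiniteDimensional k D] [Algebra.IsCentral k D]

/-- the matrix representation of `SL_n(D)` -/
def phiD (n : Type) [Fintype n] [DecidableEq n] : SLD n D →* Matrix n n D :=
  (Units.coeHom (Matrix n n D)).comp (SLD n D).subtype

omit [ProperSpace k] [FiniteDimensional k D] [Algebra.IsCentral k D] [NontriviallyNormedField k]
  [NormedAlgebra k D] in
theorem phiD_apply {n : Type} [Fintype n] [DecidableEq n] (g : SLD n D) : phiD D n g = g.1.1 := rfl

/-- The weights. -/
def wD (m : ℕ) : Fin (m + 1) → ℤ := fun i => if i = 0 then 1 else if i = Fin.last m then -1 else 0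

/-- The torus element. -/
theorem exists_diag {m : ℕ} (hm : 1 ≤ m) {t : k} (ht : t ≠ 0) :
    ∃ g : SpecialLinearGroup (Fin (m + 1)) k, g.1 = Matrix.diagonal fun i => t ^ wD m i := by
  have h0 : (0 : Fin (m + 1)) ≠ Fin.last m := by
    intro h
    have := congrArg Fin.val h
    simp only [Fin.val_zero, Fin.val_last] at this
    omega
  refine ⟨⟨Matrix.diagonal fun i => t ^ wD m i, ?_⟩, rfl⟩
  rw [Matrix.det_diagonal]
  have e : ∀ i : Fin (m + 1), t ^ wD m i =
      (if i = 0 then t else 1) * (if i = Fin.last m then t⁻¹ else 1) := by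
    intro i
    unfold wD
    by_cases h1 : i = 0
    · subst h1
      rw [if_pos rfl, if_pos rfl, if_neg h0, zpow_one, mul_one]
    · rw [if_neg h1, if_neg h1]
      by_cases h2 : i = Fin.last m
      · rw [if_pos h2, if_pos h2, _root_.zpow_neg, zpow_one, one_mul]
      · rw [if_neg h2, if_neg h2, zpow_zero, mul_one]
  simp_rw [e]
  rw [Finset.prod_mul_distrib, Finset.prod_ite_eq' , Finset.prod_ite_eq',
    if_pos (Finset.mem_univ _), if_pos (Finset.mem_univ _), mul_inv_cancel₀ ht]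

theorem smul_vmv {n : Type} [Fintype n] [DecidableEq n] (s : k) (u φ : n → D) :
    vecMulVec (s • u) φ = s • vecMulVec u φ := by
  ext i j
  rw [vecMulVec_apply, Matrix.smul_apply, vecMulVec_apply, Pi.smul_apply, smul_mul_assoc]

theorem W_top_sld {m : ℕ} (hm : 1 ≤ m) :
    W (univ : Set k) (phiD D (Fin (m + 1))) = ⊤ := by
  have hΦ : IsClosedEmbedding (phiD D (Fin (m + 1))) :=
    isClosedEmbedding_SLD (n := Fin (m + 1)) (D := D) k (two_le (by omega))
  have h1 : SLD (Fin (m + 1)) D ≤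
      (W (univ : Set k) (phiD D (Fin (m + 1)))).map (SLD (Fin (m + 1)) D).subtype := by
    unfold SLD
    rw [Subgroup.closure_le]
    rintro g ⟨u, φ, h, hg⟩
    have hmem : g ∈ SLD (Fin (m + 1)) D := Subgroup.subset_closure ⟨u, φ, h, hg⟩
    refine ⟨⟨g, hmem⟩, ?_, rfl⟩
    refine mem_W_of_fam hΦ.isEmbedding (mem_univ _)
      (P := fun s : k => (1 : Matrix (Fin (m + 1)) (Fin (m + 1)) D) + s • vecMulVec u φ)
      (Q := fun s : k => (1 : Matrix (Fin (m + 1)) (Fin (m + 1)) D) + s • vecMulVec (-u) φ)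
      (Pol.lin1 _ _) (Pol.lin1 _ _) (by rw [zero_smul, add_zero]) ?_ ?_
    · intro s _
      have h2 : φ ⬝ᵥ (s • u) = 0 := by rw [dotProduct_smul, h, smul_zero]
      refine ⟨⟨tv h2, tv_mem h2⟩, ?_, ?_⟩
      · show tm (s • u) φ = _
        rw [tm, smul_vmv]
      · show tm (-(s • u)) φ = _
        rw [tm, ← smul_neg, smul_vmv]
    · show g.1 = _
      rw [hg, one_smul]
  rw [eq_top_iff]
  rintro g -
  obtain ⟨x, hx, hxg⟩ := h1 g.2
  have h2 : x = g := Subtype.ext hxg
  rw [← h2]
  exact hx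

/-- **The linear data of `SL_n(D)`.** -/
theorem dat_sld (hk : LocK k) {m : ℕ} (hm : 1 ≤ m) : Dat (SLD (Fin (m + 1)) D) := by
  have hq := qf_sld k D hk hm
  haveI := hq.top
  have hΦ : IsClosedEmbedding (phiD D (Fin (m + 1))) :=
    isClosedEmbedding_SLD (n := Fin (m + 1)) (D := D) k (two_le (by omega))
  obtain ⟨t, ht⟩ := NormedField.exists_one_lt_norm k
  have ht0 : t ≠ 0 := norm_pos_iff.1 (by linarith)
  obtain ⟨g, hg⟩ := exists_diag k hm ht0
  have h0 : (0 : Fin (m + 1)) ≠ Fin.last m := by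
    intro h
    have := congrArg Fin.val h
    simp only [Fin.val_zero, Fin.val_last] at this
    omega
  have hm2 : 2 ≤ m + 1 := by omega
  refine dat_of_W hq.fac.simple hΦ (neBot_univ k) (mem_univ _) (wD m) ht
    (a := dE k D hm2 g) ?_ (W_top_sld k D hm) ?_
  · show (dE k D hm2 g).1.1 = _
    rw [dE_val, hg, Matrix.diagonal_map (map_zero _)]
  · have h1 : (Pi.single (Fin.last m) (1 : D) : Fin (m + 1) → D) ⬝ᵥ Pi.single 0 1 = 0 := by
      rw [dotProduct_single_one, Pi.single_eq_of_ne h0]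
    refine ⟨⟨tv h1, tv_mem h1⟩, 0, Fin.last m, ?_, ?_⟩
    · unfold wD
      rw [if_neg h0.symm, if_pos rfl, if_pos rfl]
      norm_num
    · show tm _ _ 0 (Fin.last m) ≠ 0
      rw [tm, Matrix.add_apply, Matrix.one_apply_ne h0, zero_add, vecMulVec_apply,
        Pi.single_eq_same, Pi.single_eq_same, one_mul]
      exact one_ne_zero

/-- **Closed nondiscrete subgroups of finite covolume of `SL_n(D)` are open.** -/
theorem nd_sld (hk : LocK k) {m : ℕ} (hm : 1 ≤ m) : ND (SLD (Fin (m + 1)) D) :=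
  nd_of_dat (qf_sld k D hk hm) (dat_sld k D hk hm)

end sld

/-- `SL_n(D)` modulo central subgroups. -/
theorem nd_isSL {k : Type} [NontriviallyNormedField k] [ProperSpace k] (hk : LocK k) {D G : Type}
    [NormedDivisionRing D] [NormedAlgebra k D] (h : UN.IsFC k D) [Group G]
    [TopologicalSpace G] [IsTopologicalGroup G] (hG : UN.IsSL D G) : ND G := by
  obtain ⟨h1, h2⟩ := h
  haveI := h1
  haveI := h2
  obtain ⟨n, hn, f, hf, -⟩ := hG
  obtain ⟨m, rfl⟩ := Nat.exists_eq_add_of_le' (show 1 ≤ n by omega)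
  have hm : 1 ≤ m := by omega
  have e : commutator (Matrix (Fin (m + 1)) (Fin (m + 1)) D)ˣ = SLD (Fin (m + 1)) D :=
    (SLD_eq_commutator (two_le hn) k (exists_sq_ne k)).symm
  have h3 : ∀ (S : Subgroup (Matrix (Fin (m + 1)) (Fin (m + 1)) D)ˣ), S = SLD (Fin (m + 1)) D →
      ∀ f : S →* G, IsQuotientMap f → ND G := by
    rintro S rfl f hf
    haveI := (qf_sld k D hk hm).top
    exact nd_quo f hf (nd_sld k D hk hm)
  exact h3 _ e f hf

end Vale.Agent.P092.H144.Nc
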